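import Vale.Agent.P225.System.Coeff.IsCoeff.Core

/-!
P225, module F: a rapidly decreasing solution of the path equation which is the regular solution in
the core gives the coefficients of a harmonic series.
-/

noncomputable section

namespace Vale.Agent.P225

open Matrix SU2 Set
open scoped ContDiff Topology

/-- The radial core coefficient. -/
def coreCoeff (β : ℝ) (ξ : Pnt → ℂ) (x : Pnt) (r : ℝ) : ℂ :=
  ξ x * ((r ^ lab x 1 * coreFn (lab x 1) (coreEig β x * r ^ 2) : ℝ) : ℂ)

/-- Coefficients in `r`: the core formula below `r₂`, the solution in `log r` beyond. -/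
def radialCoeff (r₂ β : ℝ) (ξ : Pnt → ℂ) (f : Pnt → ℝ → ℂ) (x : Pnt) (r : ℝ) : ℂ :=
  if r < r₂ then coreCoeff β ξ x r else f x (Real.log r)

variable {d : PathData} {r₂ β φ₀ : ℝ}

namespace IsCoeffAux

/-- The coefficient in logarithmic time, on the whole line. -/
def logCoeff (r₂ β : ℝ) (ξ : Pnt → ℂ) (f : Pnt → ℝ → ℂ) (x : Pnt) (t : ℝ) : ℂ :=
  radialCoeff r₂ β ξ f x (Real.exp t)

/-- Its derivative. -/
def logCoeff' (r₂ β : ℝ) (ξ : Pnt → ℂ) (f' : Pnt → ℝ → ℂ) (x : Pnt) (t : ℝ) : ℂ :=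
  if t < Real.log r₂ then ξ x * ((coreW β x t * coreG β x t : ℝ) : ℂ) else f' x t

theorem coreCoeff_exp (ξ : Pnt → ℂ) (x : Pnt) (t : ℝ) :
    coreCoeff β ξ x (Real.exp t) = ξ x * ((coreG β x t : ℝ) : ℂ) := by
  rw [coreCoeff, coreG_eq]

variable {p : Param} {f f' : Pnt → ℝ → ℂ} {ξ : Pnt → ℂ}

theorem logCoeff_core (hr₂ : 0 < r₂) (f : Pnt → ℝ → ℂ) (x : Pnt) {t : ℝ} (ht : t < Real.log r₂) :
    logCoeff r₂ β ξ f x t = ξ x * ((coreG β x t : ℝ) : ℂ) := by
  rw [logCoeff, radialCoeff, if_pos ((Real.lt_log_iff_exp_lt hr₂).1 ht), coreCoeff_exp]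

theorem logCoeff_sol (hr₂ : 0 < r₂)
    (hcore : ∀ x t, startTime r₂ < t → t < Real.log r₂ → f x t = coreCoeff β ξ x (Real.exp t))
    (x : Pnt) {t : ℝ} (ht : startTime r₂ < t) : logCoeff r₂ β ξ f x t = f x t := by
  unfold logCoeff radialCoeff
  split_ifs with h
  · exact (hcore x t ht ((Real.lt_log_iff_exp_lt hr₂).2 h)).symm
  · rw [Real.log_exp]

theorem logCoeff'_sol (hd : d.Good r₂ β φ₀) (h : IsPathSol d p (startTime r₂) f f')
    (hcore : ∀ x t, startTime r₂ < t → t < Real.log r₂ → f x t = coreCoeff β ξ x (Real.exp t))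
    (x : Pnt) {t : ℝ} (ht : startTime r₂ < t) : logCoeff' r₂ β ξ f' x t = f' x t := by
  unfold logCoeff'
  split_ifs with hL
  · have e : f x =ᶠ[𝓝 t] fun u => ξ x * ((coreG β x u : ℝ) : ℂ) := by
      filter_upwards [Ioo_mem_nhds ht hL] with u hu
      rw [hcore x u hu.1 hu.2, coreCoeff_exp]
    exact ((hasDerivAt_coreG hd.β_pos x t).ofReal_comp.const_mul (ξ x)).unique
      ((h.deriv₁ x t ht).congr_of_eventuallyEq e.symm)
  · rfl

theorem logCoeff_log {r : ℝ} (hr : 0 < r) (x : Pnt) :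
    radialCoeff r₂ β ξ f x r = logCoeff r₂ β ξ f x (Real.log r) := by
  rw [logCoeff, Real.exp_log hr]

theorem f_at_top (hd : d.Good r₂ β φ₀) (h : IsPathSol d p (startTime r₂) f f')
    (hcore : ∀ x t, startTime r₂ < t → t < Real.log r₂ → f x t = coreCoeff β ξ x (Real.exp t))
    (x : Pnt) : f x (Real.log r₂) = ξ x * ((coreG β x (Real.log r₂) : ℝ) : ℂ) := by
  have h0 : startTime r₂ < Real.log r₂ := by unfold startTime; linarith
  have c1 : Filter.Tendsto (f x) (𝓝[<] Real.log r₂) (𝓝 (f x (Real.log r₂))) :=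
    (h.deriv₁ x _ h0).continuousAt.continuousWithinAt
  have c2 : Filter.Tendsto (fun u => ξ x * ((coreG β x u : ℝ) : ℂ)) (𝓝[<] Real.log r₂)
      (𝓝 (ξ x * ((coreG β x (Real.log r₂) : ℝ) : ℂ))) :=
    ((hasDerivAt_coreG hd.β_pos x _).ofReal_comp.const_mul (ξ x)).continuousAt.continuousWithinAt
  refine tendsto_nhds_unique (c1.congr' ?_) c2
  filter_upwards [Ioo_mem_nhdsLT h0] with u hu
  rw [hcore x u hu.1 hu.2, coreCoeff_exp]

/-- On the whole line it solves the path equation. -/
theorem logCoeff_isPathSol (hd : d.Good r₂ β φ₀) (h : IsPathSol d p (startTime r₂) f f')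
    (hcore : ∀ x t, startTime r₂ < t → t < Real.log r₂ → f x t = coreCoeff β ξ x (Real.exp t))
    (t₀ : ℝ) : IsPathSol d p t₀ (logCoeff r₂ β ξ f) (logCoeff' r₂ β ξ f') := by
  have hβ := hd.β_pos
  have hr₂ := hd.r₂_pos
  set L := Real.log r₂ with hL
  have hsL : startTime r₂ < L := by unfold startTime; linarith
  refine ⟨fun x t _ => ?_, fun x t _ => ?_, fun a b _ hab q => ?_⟩
  · by_cases ht : t < L
    · have e : logCoeff r₂ β ξ f x =ᶠ[𝓝 t] fun u => ξ x * ((coreG β x u : ℝ) : ℂ) := by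
        filter_upwards [Iio_mem_nhds ht] with u hu using logCoeff_core hr₂ f x hu
      refine HasDerivAt.congr_of_eventuallyEq ?_ e
      rw [logCoeff', if_pos ht]
      exact (hasDerivAt_coreG hβ x t).ofReal_comp.const_mul _
    · have ht' : startTime r₂ < t := hsL.trans_le (not_lt.1 ht)
      have e : logCoeff r₂ β ξ f x =ᶠ[𝓝 t] f x := by
        filter_upwards [Ioi_mem_nhds ht'] with u hu using logCoeff_sol hr₂ hcore x hu
      rw [logCoeff'_sol hd h hcore x ht']
      exact (h.deriv₁ x t ht').congr_of_eventuallyEq e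
  · by_cases ht : t < L
    · have e : logCoeff' r₂ β ξ f' x =ᶠ[𝓝 t]
          fun u => ξ x * ((coreW β x u * coreG β x u : ℝ) : ℂ) := by
        filter_upwards [Iio_mem_nhds ht] with u hu
        rw [logCoeff', if_pos (show u < Real.log r₂ from hu)]
      refine HasDerivAt.congr_of_eventuallyEq ?_ e
      rw [core_row hd p ht, logCoeff', if_pos ht, logCoeff_core hr₂ f x ht,
        (core_path hd p ht).2.2]
      refine ((hasDerivAt_coreG' hβ x t).ofReal_comp.const_mul (ξ x)).congr_deriv ?_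
      push_cast
      ring
    · have ht' : startTime r₂ < t := hsL.trans_le (not_lt.1 ht)
      have e : logCoeff' r₂ β ξ f' x =ᶠ[𝓝 t] f' x := by
        filter_upwards [Ioi_mem_nhds ht'] with u hu using logCoeff'_sol hd h hcore x hu
      have hrow : (fun z => logCoeff r₂ β ξ f z t) = fun z => f z t :=
        funext fun z => logCoeff_sol hr₂ hcore z ht'
      rw [hrow, logCoeff'_sol hd h hcore x ht']
      exact (h.deriv₂ x t ht').congr_of_eventuallyEq e
  · obtain ⟨C, hC⟩ := h.decay L (max b L) hsL (le_max_right _ _) (q + 2)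
    set M := 2 + Real.exp (2 * L) / β with hM
    have hM0 : 0 ≤ M := by positivity
    refine ⟨(1 + M) * max C 0, fun x t ht => ?_⟩
    set n : ℝ := (ptSize x : ℝ) + 1
    have hn : 1 ≤ n := le_add_of_nonneg_left (Nat.cast_nonneg _)
    have hn2 : 1 ≤ n ^ 2 := one_le_pow₀ hn
    have hmax : (0 : ℝ) ≤ max C 0 := le_max_right _ _
    by_cases htL : t < L
    · have hg0 := (coreG_pos hβ x t).le
      have hgm := coreG_mono hβ x htL.le
      have hw0 := coreW_nonneg hβ x t
      have hw : coreW β x t ≤ M * n ^ 2 := coreW_le hβ x htL.le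
      rw [logCoeff_core hr₂ f x htL, logCoeff', if_pos htL, norm_mul, norm_mul, Complex.norm_real,
        Complex.norm_real, Real.norm_eq_abs, Real.norm_eq_abs, abs_of_nonneg hg0,
        abs_of_nonneg (mul_nonneg hw0 hg0)]
      have h1 : n ^ (q + 2) * ‖f x L‖ ≤ C := le_trans
        (mul_le_mul_of_nonneg_left (le_add_of_nonneg_right (norm_nonneg (f' x L))) (by positivity))
        (hC x L ⟨le_rfl, le_max_right _ _⟩)
      rw [f_at_top hd h hcore, norm_mul, Complex.norm_real, Real.norm_eq_abs,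
        abs_of_nonneg (coreG_pos hβ x L).le] at h1
      have h2 : ‖ξ x‖ * coreG β x t + ‖ξ x‖ * (coreW β x t * coreG β x t) ≤
          (1 + M) * (n ^ 2 * (‖ξ x‖ * coreG β x L)) := by
        have e1 : ‖ξ x‖ * coreG β x t ≤ ‖ξ x‖ * coreG β x L :=
          mul_le_mul_of_nonneg_left hgm (norm_nonneg _)
        have e2 : (1 + coreW β x t) * (‖ξ x‖ * coreG β x t) ≤
            ((1 + M) * n ^ 2) * (‖ξ x‖ * coreG β x L) :=
          mul_le_mul (by nlinarith) e1 (by positivity) (by positivity)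
        linarith
      calc n ^ q * (‖ξ x‖ * coreG β x t + ‖ξ x‖ * (coreW β x t * coreG β x t))
          ≤ n ^ q * ((1 + M) * (n ^ 2 * (‖ξ x‖ * coreG β x L))) :=
            mul_le_mul_of_nonneg_left h2 (by positivity)
        _ = (1 + M) * (n ^ (q + 2) * (‖ξ x‖ * coreG β x L)) := by ring
        _ ≤ (1 + M) * max C 0 :=
            mul_le_mul_of_nonneg_left (h1.trans (le_max_left _ _)) (by positivity)
    · have ht' : startTime r₂ < t := hsL.trans_le (not_lt.1 htL)
      rw [logCoeff_sol hr₂ hcore x ht', logCoeff'_sol hd h hcore x ht']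
      have h1 := hC x t ⟨not_lt.1 htL, ht.2.trans (le_max_left _ _)⟩
      have h2 : n ^ q * (‖f x t‖ + ‖f' x t‖) ≤ n ^ (q + 2) * (‖f x t‖ + ‖f' x t‖) :=
        mul_le_mul_of_nonneg_right (pow_le_pow_right₀ hn (by omega)) (by positivity)
      calc _ ≤ max C 0 := h2.trans (h1.trans (le_max_left _ _))
        _ ≤ _ := le_mul_of_one_le_left hmax (by linarith)

end IsCoeffAux

open IsCoeffAux

theorem radialCoeff_isCoeff (hd : d.Good r₂ β φ₀) {p : Param} (hp : InBox d p)
    {f f' : Pnt → ℝ → ℂ} (h : IsPathSol d p (startTime r₂) f f') {ξ : Pnt → ℂ}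
    (hcore : ∀ x t, startTime r₂ < t → t < Real.log r₂ →
      f x t = coreCoeff β ξ x (Real.exp t)) :
    IsCoeff (pathMetric d p r₂ β) (r₂ * Real.exp (-1)) r₂ β (radialCoeff r₂ β ξ f) ξ := by
  have hr₂ := hd.r₂_pos
  have hβ := hd.β_pos
  set G := logCoeff r₂ β ξ f with hGdef
  have hsol := fun t₀ => logCoeff_isPathSol hd h hcore t₀
  have hGs : ∀ x, ContDiff ℝ ∞ (G x) := fun x => contDiff_iff_contDiffAt.2 fun t =>
    ((pathSol_bootstrap hd hp (hsol (t - 1))).1 x).contDiffAt (Ioi_mem_nhds (by linarith))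
  have hlog : ContDiffOn ℝ ∞ Real.log (Ioi 0) := fun r hr =>
    (Real.contDiffAt_log.2 (ne_of_gt hr)).contDiffWithinAt
  have heq : ∀ x, EqOn (radialCoeff r₂ β ξ f x) (G x ∘ Real.log) (Ioi 0) := fun x r hr =>
    logCoeff_log hr x
  refine ⟨by positivity, ?_, hβ, fun v _ hv => if_pos hv, fun x r _ hr => if_pos hr,
    fun q => ?_, fun x => ?_, fun a b ha hab m q => ?_, fun r hr => ?_⟩
  · calc r₂ * Real.exp (-1) < r₂ * 1 :=
          mul_lt_mul_of_pos_left (Real.exp_lt_one_iff.2 (by norm_num)) hr₂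
      _ = r₂ := mul_one _
  · obtain ⟨C, hC⟩ := h.decay (Real.log r₂) (Real.log r₂) (by unfold startTime; linarith) le_rfl q
    refine ⟨C, fun x => le_trans ?_ (hC x _ ⟨le_rfl, le_rfl⟩)⟩
    have e := coreG_eq β x (Real.log r₂)
    rw [Real.exp_log hr₂] at e
    rw [f_at_top hd h hcore, norm_mul, Complex.norm_real, Real.norm_eq_abs,
      abs_of_pos (coreG_pos hβ x _), e, mul_assoc, mul_assoc]
    exact mul_le_mul_of_nonneg_left (le_add_of_nonneg_right (norm_nonneg _)) (by positivity)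
  · exact (((hGs x).contDiffOn (s := univ)).comp hlog (mapsTo_univ _ _)).congr fun r hr => heq x hr
  · -- decay of all derivatives
    obtain ⟨-, hdec⟩ := pathSol_bootstrap hd hp (hsol (Real.log a - 1))
    choose Cd hCd using fun i => hdec (Real.log a) (Real.log b) (by linarith)
      (Real.log_le_log ha hab) i q
    have hsub : Icc a b ⊆ Ioi (0 : ℝ) := fun r hr => ha.trans_le hr.1
    choose B hB using fun i : ℕ => (isCompact_Icc (a := a) (b := b)).exists_bound_of_continuousOn
      ((hlog.continuousOn_iteratedDerivWithin (m := i) (mod_cast le_top)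
        (uniqueDiffOn_Ioi 0)).mono hsub)
    set D : ℝ := 1 + ∑ i ∈ Finset.range (m + 1), |B i| with hD
    have hD1 : 1 ≤ D := le_add_of_nonneg_right (Finset.sum_nonneg fun i _ => abs_nonneg _)
    refine ⟨(m.factorial : ℝ) * (∑ i ∈ Finset.range (m + 1), |Cd i|) * D ^ m, fun x r hr => ?_⟩
    have hr0 : r ∈ Ioi (0 : ℝ) := hsub hr
    rw [iteratedDerivWithin_congr (heq x) hr0]
    set n : ℝ := ((ptSize x : ℝ) + 1) ^ q with hn
    have hn0 : 0 < n := pow_pos (by positivity) q
    have hmem : Real.log r ∈ Icc (Real.log a) (Real.log b) :=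
      ⟨Real.log_le_log ha hr.1, Real.log_le_log hr0 hr.2⟩
    have key := norm_iteratedFDerivWithin_comp_le (𝕜 := ℝ) (g := G x) (f := Real.log) (n := m)
      (N := ∞) (s := Ioi 0) (t := univ) (x := r) (hGs x).contDiffOn hlog (mod_cast le_top)
      uniqueDiffOn_univ (uniqueDiffOn_Ioi 0) (mapsTo_univ _ _) hr0
      (C := (∑ i ∈ Finset.range (m + 1), |Cd i|) / n) (D := D) (fun i hi => ?_) (fun i h1 hi => ?_)
    · rw [norm_iteratedFDerivWithin_eq_norm_iteratedDerivWithin] at key
      calc n * ‖iteratedDerivWithin m (G x ∘ Real.log) (Ioi 0) r‖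
          ≤ n * ((m.factorial : ℝ) * ((∑ i ∈ Finset.range (m + 1), |Cd i|) / n) * D ^ m) :=
            mul_le_mul_of_nonneg_left key hn0.le
        _ = _ := by field_simp
    · rw [norm_iteratedFDerivWithin_eq_norm_iteratedDerivWithin, iteratedDerivWithin_univ,
        le_div_iff₀ hn0, mul_comm,
        ← iteratedDerivWithin_of_isOpen isOpen_Ioi (show Real.log r ∈ Ioi (Real.log a - 1) from
          lt_of_lt_of_le (sub_one_lt _) hmem.1)]
      exact (hCd i x _ hmem).trans ((le_abs_self _).trans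
        (Finset.single_le_sum (fun j _ => abs_nonneg (Cd j)) (Finset.mem_range.2 (by omega))))
    · rw [norm_iteratedFDerivWithin_eq_norm_iteratedDerivWithin]
      refine (hB i r hr).trans ((le_abs_self _).trans ?_)
      refine le_trans ?_ (le_self_pow₀ hD1 (by omega))
      refine le_add_of_nonneg_of_le zero_le_one ?_
      exact Finset.single_le_sum (fun j _ => abs_nonneg (B j)) (Finset.mem_range.2 (by omega))
  · -- the equation near `r`
    have hd1 : ∀ x s, HasDerivAt (G x) (logCoeff' r₂ β ξ f' x s) s := fun x s =>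
      (hsol (s - 1)).deriv₁ x s (by linarith)
    obtain ⟨G₀, M, ε, hε, hM, hsym, hmet, hode⟩ := localSolution_of_ode hd hp hGs
      (t := Real.log r) (ν := pathDamp d)
      (fun s => pathDamp_param hd hp s)
      (Filter.Eventually.of_forall fun s x => by
        rw [funext fun u => (hd1 x u).deriv, ((hsol (s - 1)).deriv₂ x s (by linarith)).deriv]
        show pathRow d p s (fun z => G z s) x - _ + _ = rowSum _ _ _ x
        rw [sub_add_cancel]
        rfl)
    rw [Real.exp_log hr] at hM hmet hode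
    refine ⟨G₀, M, min ε r, lt_min hε hr, fun s hs => hM s ?_, hsym, fun v hv hs => ?_,
      fun x s hs => ?_⟩
    · exact ⟨by linarith [hs.1, min_le_left ε r], by linarith [hs.2, min_le_left ε r]⟩
    · exact hmet v hv ⟨by linarith [hs.1, min_le_left ε r], by linarith [hs.2, min_le_left ε r]⟩
    · have hs0 : 0 < s := by linarith [hs.1, min_le_right ε r]
      have e : radialCoeff r₂ β ξ f x =ᶠ[𝓝 s] fun u => G x (Real.log u) := by
        filter_upwards [Ioi_mem_nhds hs0] with u hu using heq x hu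
      rw [e.deriv.deriv_eq, e.deriv_eq, funext fun y => (logCoeff_log hs0 y :
        radialCoeff r₂ β ξ f y s = G y (Real.log s))]
      exact hode x s ⟨by linarith [hs.1, min_le_left ε r], by linarith [hs.2, min_le_left ε r]⟩

end Vale.Agent.P225
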