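import Vale.Agent.P225.System.Free
import Vale.Agent.P225.System.Trunc
import Vale.Agent.P225.Series.Defs
import Vale.Agent.P225.System.Coeff.Bootstrap.Entry

/-!
P225, module F: regularity of solutions of the path equation. Rapid decay of a solution and of its
first derivative gives smoothness and rapid decay of every derivative.
-/

noncomputable section

namespace Vale.Agent.P225

open Matrix SU2 Set
open scoped ContDiff

/-- The path operator applied to coefficients. -/
def pathRow (d : PathData) (p : Param) (t : ℝ) (f : Pnt → ℂ) (x : Pnt) : ℂ :=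
  rowSum (pathGauge d t) (pathOp d p t) f x

/-- A solution of `f'' + ν f' = A f` for `t₀ < t`, rapidly decreasing in the labels. -/
structure IsPathSol (d : PathData) (p : Param) (t₀ : ℝ) (f f' : Pnt → ℝ → ℂ) : Prop where
  deriv₁ : ∀ x t, t₀ < t → HasDerivAt (f x) (f' x t) t
  deriv₂ : ∀ x t, t₀ < t →
    HasDerivAt (f' x) (pathRow d p t (fun z => f z t) x - (pathDamp d t : ℂ) * f' x t) t
  decay : ∀ a b : ℝ, t₀ < a → a ≤ b → ∀ q : ℕ, ∃ C : ℝ, ∀ x, ∀ t ∈ Icc a b,
    ((ptSize x : ℝ) + 1) ^ q * (‖f x t‖ + ‖f' x t‖) ≤ C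

variable {d : PathData} {r₂ β φ₀ : ℝ}

/-- The entries of the path operator are smooth in time, every derivative grows at most
polynomially, and a row meets only points of comparable size. -/
theorem pathEntry_smooth (hd : d.Good r₂ β φ₀) {p : Param} (hp : InBox d p) :
    (∀ (x : Pnt) (K : ℕ) (c : PntK K → ℂ), 2 * ptSize x ≤ K →
      ∀ t, pathRow d p t (fun z => ∑ w : PntK K, if w.out = z then c w else 0) x =
        ∑ w : PntK K, gaugeEntry (pathGauge d t) (pathOp d p t) x w.out * c w) ∧
      (∀ x y : Pnt, ContDiff ℝ ∞ fun t => gaugeEntry (pathGauge d t) (pathOp d p t) x y) ∧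
      ∀ (a b : ℝ) (m : ℕ), ∃ (C : ℝ) (q : ℕ), ∀ x y : Pnt, ∀ t ∈ Icc a b,
        ‖iteratedDeriv m (fun u => gaugeEntry (pathGauge d u) (pathOp d p u) x y) t‖ ≤
          C * ((ptSize x : ℝ) + 1) ^ q := by
  refine ⟨fun x K c hK t => ?_, Boot.entry_contDiff hd hp, fun a b m => ?_⟩
  · classical
    rw [pathRow, Boot.rowSum_eq _ x (K := K) (by
      have := Boot.pair_le x (pathGauge d t)
      omega)]
    refine Finset.sum_congr rfl fun w _ => ?_
    congr 1
    rw [Finset.sum_eq_single w (fun v _ hv => if_neg fun h => hv (PntK.out_injective h)) (by simp),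
      if_pos rfl]
  · obtain ⟨C, -, hC⟩ := Boot.entry_bound hd hp a b m
    exact ⟨C, 8, hC⟩

/-- Bootstrap. -/
theorem pathSol_bootstrap (hd : d.Good r₂ β φ₀) {p : Param} (hp : InBox d p) {t₀ : ℝ}
    {f f' : Pnt → ℝ → ℂ} (h : IsPathSol d p t₀ f f') :
    (∀ x, ContDiffOn ℝ ∞ (f x) (Ioi t₀)) ∧
      ∀ a b : ℝ, t₀ < a → a ≤ b → ∀ m q : ℕ, ∃ C : ℝ, ∀ x, ∀ t ∈ Icc a b,
        ((ptSize x : ℝ) + 1) ^ q * ‖iteratedDerivWithin m (f x) (Ioi t₀) t‖ ≤ C := by
  set E : Pnt → Pnt → ℝ → ℂ := fun x y t => gaugeEntry (pathGauge d t) (pathOp d p t) x y with hE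
  have hEsm : ∀ x y, ContDiff ℝ ∞ (E x y) := Boot.entry_contDiff hd hp
  have hν : ContDiff ℝ ∞ fun t => (pathDamp d t : ℂ) :=
    Complex.ofRealCLM.contDiff.comp (baseCoef_spec hd).2.1
  set R : Pnt → ℝ → ℂ := fun x t =>
    (∑ w : PntK (ptSize x), E x w.out t * f w.out t) - (pathDamp d t : ℂ) * f' x t
  have hR : ∀ x t, t₀ < t → HasDerivAt (f' x) (R x t) t := fun x t ht => by
    refine (h.deriv₂ x t ht).congr_deriv ?_
    rw [pathRow, Boot.rowSum_eq _ x (K := ptSize x) (Boot.pair_le x _)]
  have hopen : IsOpen (Ioi t₀) := isOpen_Ioi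
  -- smoothness
  have hsm : ∀ n : ℕ, ∀ x, ContDiffOn ℝ n (f x) (Ioi t₀) ∧ ContDiffOn ℝ n (f' x) (Ioi t₀) := by
    intro n
    induction n with
    | zero =>
      exact fun x => ⟨contDiffOn_zero.2 fun t ht => (h.deriv₁ x t ht).continuousAt.continuousWithinAt,
        contDiffOn_zero.2 fun t ht => (hR x t ht).continuousAt.continuousWithinAt⟩
    | succ n ih =>
      intro x
      have hRn : ContDiffOn ℝ n (R x) (Ioi t₀) :=
        (ContDiffOn.sum fun w _ =>
          (((hEsm x w.out).of_le (by exact_mod_cast le_top)).contDiffOn).mul (ih w.out).1).sub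
          (((hν.of_le (by exact_mod_cast le_top)).contDiffOn).mul (ih x).2)
      rw [show ((n + 1 : ℕ) : WithTop ℕ∞) = (n : WithTop ℕ∞) + 1 by simp]
      simp only [contDiffOn_succ_iff_deriv_of_isOpen hopen]
      exact ⟨⟨fun t ht => (h.deriv₁ x t ht).differentiableAt.differentiableWithinAt, by simp,
          (ih x).2.congr fun t ht => (h.deriv₁ x t ht).deriv⟩,
        fun t ht => (hR x t ht).differentiableAt.differentiableWithinAt, by simp,
          hRn.congr fun t ht => (hR x t ht).deriv⟩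
  refine ⟨fun x => contDiffOn_infty.2 fun n => (hsm n x).1, fun a b ha hab => ?_⟩
  set D : ℕ → (ℝ → ℂ) → ℝ → ℂ := fun j g => iteratedDerivWithin j g (Ioi t₀) with hD
  have hI : ∀ t ∈ Icc a b, t ∈ Ioi t₀ := fun t ht => lt_of_lt_of_le ha ht.1
  have hU : UniqueDiffOn ℝ (Ioi t₀) := hopen.uniqueDiffOn
  have succ' : ∀ (g g' : ℝ → ℂ), (∀ t, t₀ < t → HasDerivAt g (g' t) t) →
      ∀ j, Set.EqOn (D (j + 1) g) (D j g') (Ioi t₀) := fun g g' hg j => by
    simp only [hD, iteratedDerivWithin_succ']
    exact iteratedDerivWithin_congr fun t ht => by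
      rw [derivWithin_of_isOpen hopen ht, (hg t ht).deriv]
  suffices hall : ∀ j q : ℕ, ∃ C : ℝ, 0 ≤ C ∧ ∀ i ≤ j, ∀ x, ∀ t ∈ Icc a b,
      ((ptSize x : ℝ) + 1) ^ q * (‖D i (f x) t‖ + ‖D i (f' x) t‖) ≤ C by
    intro m q
    obtain ⟨C, -, hC⟩ := hall m q
    exact ⟨C, fun x t ht => le_trans (mul_le_mul_of_nonneg_left
      (le_add_of_nonneg_right (norm_nonneg _)) (by positivity)) (hC m le_rfl x t ht)⟩
  intro j
  induction j with
  | zero =>
    intro q
    obtain ⟨C, hC⟩ := h.decay a b ha hab q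
    refine ⟨max C 0, le_max_right _ _, fun i hi x t ht => ?_⟩
    obtain rfl : i = 0 := Nat.le_zero.1 hi
    simp only [hD, iteratedDerivWithin_zero]
    exact (hC x t ht).trans (le_max_left _ _)
  | succ j ih =>
    intro q
    choose CE hCE0 hCE using fun i => Boot.entry_bound hd hp a b i
    have hνb : ∀ i, ∃ M : ℝ, 0 ≤ M ∧ ∀ t ∈ Icc a b, ‖D i (fun s => (pathDamp d s : ℂ)) t‖ ≤ M := by
      intro i
      have hc := (hν.contDiffOn (s := Ioi t₀)).continuousOn_iteratedDerivWithin (m := i)
        (by exact_mod_cast le_top) hU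
      obtain ⟨M, hM⟩ := (isCompact_Icc.image_of_continuousOn
        ((hc.mono hI).norm)).bddAbove
      exact ⟨max M 0, le_max_right _ _, fun t ht =>
        (hM (mem_image_of_mem _ ht)).trans (le_max_left _ _)⟩
    choose Mν hMν0 hMν using hνb
    obtain ⟨CF, hCF0, hCF⟩ := ih (q + 14)
    obtain ⟨CG, hCG0, hCG⟩ := ih q
    refine ⟨CG + ((∑ i ∈ Finset.range (j + 1), (j.choose i : ℝ) * CE i) * (2 ^ (q + 14) * CF) +
      (∑ i ∈ Finset.range (j + 1), (j.choose i : ℝ) * Mν i) * CG), ?_, fun i hi x t ht => ?_⟩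
    · have hnn : ∀ g : ℕ → ℝ, (∀ i, 0 ≤ g i) →
          0 ≤ ∑ i ∈ Finset.range (j + 1), (j.choose i : ℝ) * g i :=
        fun g hg => Finset.sum_nonneg fun i _ => mul_nonneg (Nat.cast_nonneg _) (hg i)
      have := hnn CE hCE0
      have := hnn Mν hMν0
      positivity
    set X := (ptSize x : ℝ) + 1 with hX
    have hX0 : 0 < X := by positivity
    have hX1 : 1 ≤ X := by simp [hX]
    have hmix := Finset.sum_nonneg (s := Finset.range (j + 1))
      fun i _ => mul_nonneg (Nat.cast_nonneg (α := ℝ) (j.choose i)) (hCE0 i)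
    have hmix' := Finset.sum_nonneg (s := Finset.range (j + 1))
      fun i _ => mul_nonneg (Nat.cast_nonneg (α := ℝ) (j.choose i)) (hMν0 i)
    rcases Nat.le_succ_iff.1 hi with hi' | rfl
    · exact (hCG i hi' x t ht).trans (le_add_of_nonneg_right (by positivity))
    have htI := hI t ht
    rw [succ' _ _ (h.deriv₁ x) j htI, succ' _ _ (hR x) j htI, mul_add]
    have h1 : X ^ q * ‖D j (f' x) t‖ ≤ CG := le_trans (mul_le_mul_of_nonneg_left
      (le_add_of_nonneg_left (norm_nonneg _)) (by positivity)) (hCG j le_rfl x t ht)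
    refine add_le_add h1 ?_
    have cE : ∀ y, ContDiffOn ℝ j (E x y) (Ioi t₀) := fun y =>
      ((hEsm x y).of_le (by exact_mod_cast le_top)).contDiffOn
    have cν : ContDiffOn ℝ j (fun s => (pathDamp d s : ℂ)) (Ioi t₀) :=
      (hν.of_le (by exact_mod_cast le_top)).contDiffOn
    have mulb : ∀ g k : ℝ → ℂ, ContDiffOn ℝ j g (Ioi t₀) → ContDiffOn ℝ j k (Ioi t₀) →
        ‖D j (fun s => g s * k s) t‖ ≤
          ∑ i ∈ Finset.range (j + 1), (j.choose i : ℝ) * ‖D i g t‖ * ‖D (j - i) k t‖ := by
      intro g k hg hk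
      simp only [hD, ← norm_iteratedFDerivWithin_eq_norm_iteratedDerivWithin]
      exact norm_iteratedFDerivWithin_mul_le hg hk hU htI le_rfl
    have hsub : D j (R x) t = (∑ w : PntK (ptSize x), D j (fun s => E x w.out s * f w.out s) t) -
        D j (fun s => (pathDamp d s : ℂ) * f' x s) t := by
      simp only [hD, R]
      rw [show (fun t => (∑ w : PntK (ptSize x), E x w.out t * f w.out t) -
          (pathDamp d t : ℂ) * f' x t) = (fun t => ∑ w : PntK (ptSize x), E x w.out t * f w.out t) -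
          fun t => (pathDamp d t : ℂ) * f' x t from rfl,
        iteratedDerivWithin_sub htI hU
        ((ContDiffOn.sum fun w _ => (cE w.out).mul (hsm j w.out).1) t htI)
        ((cν.mul (hsm j x).2) t htI), iteratedDerivWithin_fun_sum htI hU
        fun w _ => ((cE w.out).mul (hsm j w.out).1) t htI]
    rw [hsub]
    refine (mul_le_mul_of_nonneg_left (norm_sub_le _ _) (by positivity)).trans ?_
    rw [mul_add]
    refine add_le_add ?_ ?_
    · have hterm : ∀ w : PntK (ptSize x), ‖D j (fun s => E x w.out s * f w.out s) t‖ * X ^ (q + 6) ≤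
          (∑ i ∈ Finset.range (j + 1), (j.choose i : ℝ) * CE i) * (2 ^ (q + 14) * CF) := by
        intro w
        refine (mul_le_mul_of_nonneg_right (mulb _ _ (cE w.out) (hsm j w.out).1)
          (by positivity)).trans ?_
        rw [Finset.sum_mul, Finset.sum_mul]
        refine Finset.sum_le_sum fun i hi => ?_
        have hE1 : ‖D i (E x w.out) t‖ ≤ CE i * X ^ 8 := by
          simp only [hD]
          rw [iteratedDerivWithin_of_isOpen hopen htI]
          exact hCE i x w.out t ht
        by_cases hsz : ptSize x ≤ 2 * ptSize w.out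
        · set W := (ptSize w.out : ℝ) + 1
          have hXW : X ≤ 2 * W := by
            have : (ptSize x : ℝ) ≤ 2 * ptSize w.out := by exact_mod_cast hsz
            simp only [X, W]
            linarith
          have hF : ‖D (j - i) (f w.out) t‖ * X ^ (q + 14) ≤ 2 ^ (q + 14) * CF := by
            calc ‖D (j - i) (f w.out) t‖ * X ^ (q + 14)
                ≤ ‖D (j - i) (f w.out) t‖ * (2 * W) ^ (q + 14) := by gcongr
              _ = 2 ^ (q + 14) * (W ^ (q + 14) * ‖D (j - i) (f w.out) t‖) := by rw [mul_pow]; ring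
              _ ≤ _ := mul_le_mul_of_nonneg_left (le_trans (mul_le_mul_of_nonneg_left
                  (le_add_of_nonneg_right (norm_nonneg _)) (by positivity))
                  (hCF (j - i) (Nat.sub_le _ _) w.out t ht)) (by positivity)
          calc (j.choose i : ℝ) * ‖D i (E x w.out) t‖ * ‖D (j - i) (f w.out) t‖ * X ^ (q + 6)
              ≤ (j.choose i : ℝ) * (CE i * X ^ 8) * ‖D (j - i) (f w.out) t‖ * X ^ (q + 6) := by
                gcongr
            _ = (j.choose i : ℝ) * CE i * (‖D (j - i) (f w.out) t‖ * X ^ (q + 14)) := by ring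
            _ ≤ _ := mul_le_mul_of_nonneg_left hF (mul_nonneg (Nat.cast_nonneg _) (hCE0 i))
        · have h0 : E x w.out = fun _ => 0 := funext fun s => by
            by_contra hne
            exact hsz (Boot.size_of_entry hne)
          rw [h0, hD]
          simp only [iteratedDerivWithin_const, ite_self, norm_zero, mul_zero, zero_mul]
          exact mul_nonneg (mul_nonneg (Nat.cast_nonneg _) (hCE0 i))
            (mul_nonneg (by positivity) hCF0)
      have hcard : (Fintype.card (PntK (ptSize x)) : ℝ) ≤ X ^ 6 := by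
        have := Boot.card_pntK (ptSize x)
        simp only [X]
        exact_mod_cast this
      set S := (∑ i ∈ Finset.range (j + 1), (j.choose i : ℝ) * CE i) * (2 ^ (q + 14) * CF)
      calc X ^ q * ‖∑ w : PntK (ptSize x), D j (fun s => E x w.out s * f w.out s) t‖
          ≤ X ^ q * ∑ w : PntK (ptSize x), ‖D j (fun s => E x w.out s * f w.out s) t‖ :=
            mul_le_mul_of_nonneg_left (norm_sum_le _ _) (by positivity)
        _ ≤ X ^ q * ∑ _w : PntK (ptSize x), S / X ^ (q + 6) := by
            gcongr with w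
            rw [le_div_iff₀ (by positivity)]
            exact hterm w
        _ ≤ X ^ q * (X ^ 6 * (S / X ^ (q + 6))) := by
            rw [Finset.sum_const, Finset.card_univ, nsmul_eq_mul]
            gcongr
        _ = S := by rw [← mul_assoc, ← pow_add, mul_div_cancel₀ _ (by positivity)]
    · refine (mul_le_mul_of_nonneg_left (mulb _ _ cν (hsm j x).2) (by positivity)).trans ?_
      rw [Finset.mul_sum, Finset.sum_mul]
      refine Finset.sum_le_sum fun i hi => ?_
      calc X ^ q * ((j.choose i : ℝ) * ‖D i (fun s => (pathDamp d s : ℂ)) t‖ * ‖D (j - i) (f' x) t‖)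
          = (j.choose i : ℝ) * ‖D i (fun s => (pathDamp d s : ℂ)) t‖ *
              (X ^ q * ‖D (j - i) (f' x) t‖) := by ring
        _ ≤ (j.choose i : ℝ) * Mν i * CG := mul_le_mul
            (mul_le_mul_of_nonneg_left (hMν i t ht) (Nat.cast_nonneg _))
            (le_trans (mul_le_mul_of_nonneg_left (le_add_of_nonneg_left (norm_nonneg _))
              (by positivity)) (hCG (j - i) (Nat.sub_le _ _) x t ht))
            (by positivity) (mul_nonneg (Nat.cast_nonneg _) (hMν0 i))

end Vale.Agent.P225
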